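import Vale.Agent.P300.H198.TorExt
import Vale.Agent.P300.H266.SecSpec
import Vale.Agent.P300.Spec.Kap142

/-!
# P300: the covering `U_S → U` of a finite `G`-set as a finite covering of the model `V ⊆ ℂ²`

`prN r ν : r.Tot S → ℂ²` are the coordinates of the node `ν` (projection followed by `kapInv ν`);
`isFinCov_prN : IsFinCov (prN r ν) V (Nat.card S)` for finite `S`, also `isFinCov_of_covering` for
any covering of `U` with fibres `Fin N`, and `fibre_equiv`: all the fibres of a covering of `U`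
are equivalent.
-/

set_option autoImplicit false

open Set Topology Filter

namespace Vale.Agent.P300.H311

open Vale.Agent.P300 Vale.Agent.P300.H266

/-- A pair as a vector. -/
def toF (w : ℂ × ℂ) : Fin 2 → ℂ := ![w.1, w.2]

/-- A vector as a pair. -/
def toP (w : Fin 2 → ℂ) : ℂ × ℂ := (w 0, w 1)

@[simp] theorem toP_toF (w : ℂ × ℂ) : toP (toF w) = w := rfl

@[simp] theorem toF_toP (w : Fin 2 → ℂ) : toF (toP w) = w := by
  funext i
  fin_cases i <;> rfl

theorem continuous_toF : Continuous toF :=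
  continuous_pi fun i => by fin_cases i <;> simp [toF] <;> fun_prop

theorem continuous_toP : Continuous toP := by unfold toP; fun_prop

theorem toF_mem_V {w : ℂ × ℂ} (hw : w ∈ H142.W) : toF w ∈ V := hw

theorem toP_mem_W {w : Fin 2 → ℂ} (hw : w ∈ V) : toP w ∈ H142.W := hw

theorem mem_U (z : TOR.Arr.UT) : (z : ℂ × ℂ) ∈ H142.U := z.2

/-- The coordinates of the node `ν` on `U`. -/
noncomputable def cN (ν : Fin 15) (z : ℂ × ℂ) : Fin 2 → ℂ := toF (Spec.kapInv ν z)

theorem cN_mem (ν : Fin 15) {z : ℂ × ℂ} (hz : z ∈ H142.U) : cN ν z ∈ V :=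
  toF_mem_V (Spec.kapInv_mem ν hz)

theorem kap_cN (ν : Fin 15) {z : ℂ × ℂ} (hz : z ∈ H142.U) : H142.kap ν (toP (cN ν z)) = z := by
  rw [cN, toP_toF, Spec.kap_kapInv ν hz]

theorem cN_kap (ν : Fin 15) {w : Fin 2 → ℂ} (hw : w ∈ V) : cN ν (H142.kap ν (toP w)) = w := by
  rw [cN, Spec.kapInv_kap ν (toP_mem_W hw), toF_toP]

theorem continuousOn_cN (ν : Fin 15) : ContinuousOn (cN ν) H142.U := fun _ hz =>
  (continuous_toF.continuousAt.comp (Spec.analyticAt_kapInv ν hz).continuousAt).continuousWithinAt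

theorem continuousOn_kap (ν : Fin 15) : ContinuousOn (fun w => H142.kap ν (toP w)) V :=
  fun _ hw => (ContinuousAt.comp (f := toP) (g := H142.kap ν)
    (Spec.analyticAt_kap ν (toP_mem_W hw)).continuousAt
    continuous_toP.continuousAt).continuousWithinAt

theorem kap_mem (ν : Fin 15) {w : Fin 2 → ℂ} (hw : w ∈ V) : H142.kap ν (toP w) ∈ H142.U :=
  Spec.kap_mem ν (toP_mem_W hw)

/-- The coordinates of the node, on the covering. -/
noncomputable def prC {T : Type} (π : T → TOR.Arr.UT) (ν : Fin 15) (p : T) : Fin 2 → ℂ :=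
  cN ν (π p : ℂ × ℂ)

/-- **Coverings of `U` with fibres `Fin N`.** -/
theorem isFinCov_of_covering {T : Type} [TopologicalSpace T] {π : T → TOR.Arr.UT}
    (hπ : IsCoveringMap π) {N : ℕ} (hfib : ∀ z, Nonempty (Fin N ≃ π ⁻¹' {z})) (ν : Fin 15) :
    IsFinCov (prC π ν) V N where
  isOpen := isOpen_V
  cont := by
    have h : Continuous fun z : TOR.Arr.UT => cN ν (z : ℂ × ℂ) :=
      (continuousOn_cN ν).comp_continuous continuous_subtype_val mem_U
    exact h.comp hπ.continuous
  mem e := cN_mem ν (mem_U _)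
  loc := by
    classical
    intro w₀ hw₀
    set z₀ : TOR.Arr.UT := ⟨H142.kap ν (toP w₀), kap_mem ν hw₀⟩ with hz₀
    obtain ⟨hdisc, U₁, hzU, hU, hpU, H, hH⟩ := hπ z₀
    obtain ⟨e0⟩ := hfib z₀
    -- the neighbourhood
    obtain ⟨U₂, hU₂, hU₂e⟩ := isOpen_induced_iff.1 hU
    have hUiff : ∀ z : TOR.Arr.UT, z ∈ U₁ ↔ (z : ℂ × ℂ) ∈ U₂ := fun z => by
      rw [← hU₂e]; rfl
    refine ⟨V ∩ (fun w => H142.kap ν (toP w)) ⁻¹' U₂, fun i w =>
      if h : w ∈ V ∩ (fun w => H142.kap ν (toP w)) ⁻¹' U₂ then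
        (H.symm (⟨⟨H142.kap ν (toP w), kap_mem ν h.1⟩, (hUiff _).2 h.2⟩, e0 i) : T)
      else (e0 i : T), (continuousOn_kap ν).isOpen_inter_preimage isOpen_V hU₂,
      ⟨hw₀, (hUiff z₀).1 hzU⟩, inter_subset_left, fun i => ?_, fun i w hw => ?_, fun w hw => ?_,
      fun e he => ?_⟩
    · rw [continuousOn_iff_continuous_domRestrict]
      have h1 : (V ∩ (fun w => H142.kap ν (toP w)) ⁻¹' U₂).domRestrict (fun w =>
          if h : w ∈ V ∩ (fun w => H142.kap ν (toP w)) ⁻¹' U₂ then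
            (H.symm (⟨⟨H142.kap ν (toP w), kap_mem ν h.1⟩, (hUiff _).2 h.2⟩, e0 i) : T)
          else (e0 i : T)) =
          fun w : ↥(V ∩ (fun w => H142.kap ν (toP w)) ⁻¹' U₂) =>
            (H.symm (⟨⟨H142.kap ν (toP w), kap_mem ν w.2.1⟩, (hUiff _).2 w.2.2⟩, e0 i) : T) := by
        funext w
        exact dif_pos w.2
      rw [h1]
      refine continuous_subtype_val.comp (H.symm.continuous.comp ?_)
      refine Continuous.prodMk (Continuous.subtype_mk (Continuous.subtype_mk ?_ _) _)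
        continuous_const
      exact (continuousOn_kap ν).comp_continuous continuous_subtype_val fun w => w.2.1
    · have h1 : π (H.symm (⟨⟨H142.kap ν (toP w), kap_mem ν hw.1⟩, (hUiff _).2 hw.2⟩, e0 i) : T) =
          ⟨H142.kap ν (toP w), kap_mem ν hw.1⟩ := by
        rw [← hH, H.apply_symm_apply]
      rw [prC]
      simp only [dif_pos hw]
      rw [h1]
      exact cN_kap ν hw.1
    · intro i j hij
      simp only [dif_pos hw] at hij
      have h2 := H.symm.injective (Subtype.ext hij)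
      exact e0.injective (Prod.ext_iff.1 h2).2
    · have hz : π e ∈ U₁ := by
        rw [hUiff]
        have := he.2
        rw [mem_preimage, prC, kap_cN ν (mem_U _)] at this
        exact this
      refine ⟨e0.symm (H ⟨e, hz⟩).2, ?_⟩
      have hpe : (⟨H142.kap ν (toP (prC π ν e)), kap_mem ν he.1⟩ : TOR.Arr.UT) = π e :=
        Subtype.ext (kap_cN ν (mem_U _))
      simp only [dif_pos he, Equiv.apply_symm_apply]
      have h3 : ((⟨⟨H142.kap ν (toP (prC π ν e)), kap_mem ν he.1⟩, (hUiff _).2 he.2⟩,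
          (H ⟨e, hz⟩).2) : U₁ × π ⁻¹' {z₀}) = H ⟨e, hz⟩ := by
        exact Prod.ext (Subtype.ext (hpe.trans (hH ⟨e, hz⟩).symm)) rfl
      rw [h3, H.symm_apply_apply]

section Tot

variable {G : Type} [Group G] (r : TOR.Arr G) {S : Type} [MulAction G S] [TopologicalSpace S]
  [DiscreteTopology S]

/-- The coordinates of the node `ν` on `U_S`. -/
noncomputable def prN (ν : Fin 15) : r.Tot S → Fin 2 → ℂ := prC (r.pr : r.Tot S → TOR.Arr.UT) ν

theorem prN_apply (ν : Fin 15) (p : r.Tot S) :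
    prN r ν p = toF (Spec.kapInv ν (r.pr p : ℂ × ℂ)) := rfl

/-- The fibre over `z` is `S`. -/
theorem fibre_tot (z : TOR.Arr.UT) :
    Nonempty (S ≃ (r.pr : r.Tot S → TOR.Arr.UT) ⁻¹' {z}) := by
  obtain ⟨C, hC⟩ := TOR.exists_ch z.2
  refine ⟨⟨fun s => ⟨r.pt C z s, rfl⟩, fun p => r.crd C p.1, fun s => r.crd_pt hC s, fun p => ?_⟩⟩
  have hp : r.pr p.1 = z := p.2
  refine Subtype.ext ?_
  have h1 := r.pt_crd (p := p.1) (C := C) (by rw [hp]; exact hC)
  rw [hp] at h1
  exact h1

/-- **The adapter.** `U_S → V`, in the coordinates of the node `ν`, is a finite covering. -/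
theorem isFinCov_prN [Finite S] (ν : Fin 15) :
    IsFinCov (prN r ν : r.Tot S → Fin 2 → ℂ) V (Nat.card S) := by
  refine isFinCov_of_covering r.isCoveringMap_pr (fun z => ?_) ν
  obtain ⟨e⟩ := fibre_tot r (S := S) z
  exact ⟨(Finite.equivFin S).symm.trans e⟩

/-- The other properties used by JETS: Hausdorff and second countable. -/
theorem t2_secondCountable_tot [Countable S] :
    T2Space (r.Tot S) ∧ SecondCountableTopology (r.Tot S) := ⟨inferInstance, inferInstance⟩

/-- **`isFinCov_tot`**, in the form asked for by JETS. -/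
theorem isFinCov_tot [Finite S] : ∃ N, IsFinCov (prN r 0 : r.Tot S → Fin 2 → ℂ) V N :=
  ⟨_, isFinCov_prN r 0⟩

end Tot

/-! ### All the fibres of a covering of `U` are equivalent -/

theorem countable_affine {a b : ℂ} (h : b ≠ 0) : {t : ℂ | b + t * a = 0}.Countable := by
  refine (Set.Subsingleton.finite ?_).countable
  intro t ht s hs
  simp only [mem_ofPred_eq] at ht hs
  have ha : a ≠ 0 := by
    rintro rfl
    rw [mul_zero, add_zero] at ht
    exact h ht
  have : (t - s) * a = 0 := by linear_combination ht - hs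
  exact sub_eq_zero.1 ((mul_eq_zero.1 this).resolve_right ha)

/-- `U` is connected. -/
theorem isPreconnected_U : IsPreconnected H142.U := by
  refine isPreconnected_of_forall_pair fun p hp q hq => ?_
  set L : ℂ → ℂ × ℂ := fun t => p + t • (q - p) with hL
  set B : Set ℂ := {t : ℂ | p.1 + t * (q.1 - p.1) = 0} ∪ ({t | p.1 - 1 + t * (q.1 - p.1) = 0} ∪
    ({t | p.2 + t * (q.2 - p.2) = 0} ∪ ({t | p.2 - 1 + t * (q.2 - p.2) = 0} ∪
      {t | p.1 - p.2 + t * ((q.1 - p.1) - (q.2 - p.2)) = 0}))) with hB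
  have hBc : B.Countable := by
    refine (countable_affine hp.1).union ((countable_affine (sub_ne_zero.2 hp.2.1)).union
      ((countable_affine hp.2.2.1).union ((countable_affine (sub_ne_zero.2 hp.2.2.2.1)).union
        (countable_affine (sub_ne_zero.2 hp.2.2.2.2)))))
  have hconn : IsConnected Bᶜ := hBc.isConnected_compl_of_one_lt_rank (by
    simp [Complex.rank_real_complex])
  have hLc : Continuous L := by fun_prop
  have hLU : ∀ t ∈ Bᶜ, L t ∈ H142.U := by
    intro t ht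
    simp only [hB, mem_compl_iff, mem_union, mem_ofPred_eq, not_or] at ht
    obtain ⟨h1, h2, h3, h4, h5⟩ := ht
    have e1 : (L t).1 = p.1 + t * (q.1 - p.1) := by simp [hL]
    have e2 : (L t).2 = p.2 + t * (q.2 - p.2) := by simp [hL]
    refine ⟨?_, ?_, ?_, ?_, ?_⟩
    · rw [e1]; exact h1
    · rw [e1]; intro h; exact h2 (by linear_combination h)
    · rw [e2]; exact h3
    · rw [e2]; intro h; exact h4 (by linear_combination h)
    · rw [e1, e2]; intro h; exact h5 (by linear_combination h)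
  have h0 : (0 : ℂ) ∈ Bᶜ := by
    simp only [hB, mem_compl_iff, mem_union, mem_ofPred_eq, not_or, zero_mul, add_zero]
    exact ⟨hp.1, sub_ne_zero.2 hp.2.1, hp.2.2.1, sub_ne_zero.2 hp.2.2.2.1,
      sub_ne_zero.2 hp.2.2.2.2⟩
  have h1 : (1 : ℂ) ∈ Bᶜ := by
    simp only [hB, mem_compl_iff, mem_union, mem_ofPred_eq, not_or, one_mul]
    refine ⟨?_, ?_, ?_, ?_, ?_⟩
    · intro h; exact hq.1 (by linear_combination h)
    · intro h; exact hq.2.1 (by linear_combination h)
    · intro h; exact hq.2.2.1 (by linear_combination h)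
    · intro h; exact hq.2.2.2.1 (by linear_combination h)
    · intro h; exact hq.2.2.2.2 (by linear_combination h)
  refine ⟨L '' Bᶜ, ?_, ⟨0, h0, by simp [hL]⟩, ⟨1, h1, by simp [hL]⟩,
    hconn.isPreconnected.image _ hLc.continuousOn⟩
  rintro _ ⟨t, ht, rfl⟩
  exact hLU t ht

/-- The fibres of a covering of a preconnected space are equivalent. -/
theorem fibre_equiv {T X : Type} [TopologicalSpace T] [TopologicalSpace X] [PreconnectedSpace X]
    {π : T → X} (hπ : IsCoveringMap π) (z z' : X) : Nonempty (π ⁻¹' {z} ≃ π ⁻¹' {z'}) := by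
  classical
  have hloc : ∀ z₀ : X, ∀ᶠ y in 𝓝 z₀, Nonempty (π ⁻¹' {z₀} ≃ π ⁻¹' {y}) := by
    intro z₀
    obtain ⟨hdisc, U₁, hzU, hU, hpU, H, hH⟩ := hπ z₀
    filter_upwards [hU.mem_nhds hzU] with y hy
    have hm : ∀ a : π ⁻¹' {z₀}, π (H.symm (⟨y, hy⟩, a) : T) = y := fun a => by
      rw [← hH, H.apply_symm_apply]
    refine ⟨⟨fun a => ⟨(H.symm (⟨y, hy⟩, a) : T), hm a⟩,
      fun b => (H ⟨b.1, by
        have : π b.1 = y := b.2
        rw [mem_preimage, this]; exact hy⟩).2, fun a => ?_, fun b => ?_⟩⟩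
    · simp only
      have h1 : (⟨(H.symm (⟨y, hy⟩, a) : T), by
        rw [mem_preimage, hm a]; exact hy⟩ : π ⁻¹' U₁) = H.symm (⟨y, hy⟩, a) := rfl
      rw [h1, H.apply_symm_apply]
    · refine Subtype.ext ?_
      have hb : π b.1 = y := b.2
      have hbU : b.1 ∈ π ⁻¹' U₁ := by rw [mem_preimage, hb]; exact hy
      simp only
      have h1 : ((⟨y, hy⟩, (H ⟨b.1, hbU⟩).2) : U₁ × π ⁻¹' {z₀}) = H ⟨b.1, hbU⟩ := by
        refine Prod.ext (Subtype.ext ?_) rfl
        rw [hH]
        exact hb.symm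
      rw [h1, H.symm_apply_apply]
  have hcl : IsClopen {y : X | Nonempty (π ⁻¹' {z} ≃ π ⁻¹' {y})} := by
    refine ⟨⟨isOpen_iff_mem_nhds.2 fun y hy => ?_⟩, isOpen_iff_mem_nhds.2 fun y hy => ?_⟩
    · filter_upwards [hloc y] with y' hy' h
      obtain ⟨e⟩ := hy'
      obtain ⟨e'⟩ := h
      exact hy ⟨e'.trans e.symm⟩
    · filter_upwards [hloc y] with y' hy'
      obtain ⟨e⟩ := hy'
      obtain ⟨e'⟩ := hy
      exact ⟨e'.trans e⟩
  have h := hcl.eq_univ ⟨z, ⟨Equiv.refl _⟩⟩
  have : z' ∈ {y : X | Nonempty (π ⁻¹' {z} ≃ π ⁻¹' {y})} := by rw [h]; exact mem_univ _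
  exact this

instance : PreconnectedSpace TOR.Arr.UT := Subtype.preconnectedSpace isPreconnected_U

/-- **A covering of `U` with one finite fibre is a finite covering.** -/
theorem exists_isFinCov {T : Type} [TopologicalSpace T] {π : T → TOR.Arr.UT}
    (hπ : IsCoveringMap π) {z₀ : TOR.Arr.UT} {N : ℕ} (h : Nonempty (Fin N ≃ π ⁻¹' {z₀}))
    (ν : Fin 15) : IsFinCov (prC π ν) V N :=
  isFinCov_of_covering hπ (fun z => by
    obtain ⟨e⟩ := h
    obtain ⟨e'⟩ := fibre_equiv hπ z₀ z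
    exact ⟨e.trans e'⟩) ν

end Vale.Agent.P300.H311
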