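import Vale.Agent.P300.H311.FinCov
import Vale.Agent.P300.H377.NodeSys
import Vale.Agent.P300.H377.NodeSysE

/-!
# P300: the adapter of `FinCov` for `H377.prE` (helper311)

`H377.prE C pr` with `C` one of the two models of `U` (`uModel921`, `uModelE`) is
`prC pr 0` of `FinCov.lean`, hence a finite covering of `V`.
-/

set_option autoImplicit false

open Set Topology Filter

namespace Vale.Agent.P300.H311

open Vale.Agent.P300 Vale.Agent.P300.H266

theorem co0_eq (z : ℂ × ℂ) : H377.co0 z = cN 0 z := by
  have h : Mod.toP (H377.co0 z) = Mod.toP (cN 0 z) := rfl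
  exact Mod.toPH.injective h

theorem prE921_eq {T : Type} (π : T → H142.U) : H377.prE H377.uModel921 π = prC π 0 :=
  funext fun p => co0_eq (π p : ℂ × ℂ)

theorem prEE_eq {T : Type} (π : T → TOR.Arr.UT) : H377.prE H377.uModelE π = prC π 0 :=
  funext fun p => co0_eq (π p : ℂ × ℂ)

/-- A covering of `U` with one fibre `Fin N`, in the coordinates `H377.prE uModel921`. -/
theorem exists_isFinCov_prE921 {T : Type} [TopologicalSpace T] {π : T → H142.U}
    (hπ : IsCoveringMap π) {z₀ : H142.U} {N : ℕ} (h : Nonempty (Fin N ≃ π ⁻¹' {z₀})) :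
    IsFinCov (H377.prE H377.uModel921 π) V N := by
  rw [prE921_eq]
  exact exists_isFinCov (π := (π : T → TOR.Arr.UT)) hπ h 0

section Tot

variable {G : Type} [Group G] (r : TOR.Arr G) {S : Type} [MulAction G S] [TopologicalSpace S]
  [DiscreteTopology S]

/-- **The adapter** for helper377's `prE uModel921`. -/
theorem isFinCov_prE921 [Finite S] :
    IsFinCov (H377.prE H377.uModel921 (r.pr : r.Tot S → H142.U)) V (Nat.card S) :=
  have e : H377.prE H377.uModel921 (r.pr : r.Tot S → H142.U) = prN r 0 := prE921_eq _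
  (congrArg (fun f : r.Tot S → Fin 2 → ℂ => IsFinCov f V (Nat.card S)) e).mpr
    (isFinCov_prN r 0)

/-- **The adapter** for helper377's `prE uModelE`. -/
theorem isFinCov_prEE [Finite S] :
    IsFinCov (H377.prE H377.uModelE (r.pr : r.Tot S → TOR.Arr.UT)) V (Nat.card S) :=
  have e : H377.prE H377.uModelE (r.pr : r.Tot S → TOR.Arr.UT) = prN r 0 := prEE_eq _
  (congrArg (fun f : r.Tot S → Fin 2 → ℂ => IsFinCov f V (Nat.card S)) e).mpr
    (isFinCov_prN r 0)

end Tot

end Vale.Agent.P300.H311
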